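import Vale.Agent.P028.MathlibUsed
import Vale.Agent.P028.R226.LkMass
import Vale.Agent.P028.FQ.LkTerm
import Vale.Agent.P028.H383.LkEng
import Vale.Agent.P028.H279.InnerG
import Vale.Agent.P028.H279.LDecay
import Vale.Agent.P028.H383.BN
import Vale.Agent.P028.R226.BTp
attribute [-instance] ProperSMul.toContinuousSMul IsTopologicalTorsor.toContinuousSMul IdemSemiring.toCanonicallyOrderedAdd IdemSemiring.toMulLeftMono IdemSemiring.toMulRightMono AddQuantale.instAddLeftMono AddQuantale.instAddRightMono Quantale.instMulLeftMono Quantale.instMulRightMono FiniteDimensional.rclike_to_real IsScalarTower.complexToReal FiniteDimensional.complexToReal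

/-!
# The group bound of the leaks
-/

namespace Vale.P028.SK

open Finset CF

variable {g : Cfg}

/-! ### Data which depend only on the rough part -/

theorem Rg_of_Rg (hV : g.V ⊆ Icc 1 (N g)) {i s q q₁ : ℕ} (his : i ≤ s) (hq : q ∈ g.V)
    (hq₁ : q₁ ∈ g.V) (h : Rg g s q = Rg g s q₁) : Rg g i q = Rg g i q₁ := by
  apply Nat.eq_of_factorization_eq (Rg_pos i q).ne' (Rg_pos i q₁).ne'
  intro p
  rw [Rg_fac, Rg_fac]
  split_ifs with hp
  · exact fac_of_Rg hV hq₁ hq h (lt_of_le_of_lt (z_anti g his) (mem_PO.1 hp).2.1)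
  · rfl

theorem ro_of_Rg (hV : g.V ⊆ Icc 1 (N g)) {s x q q₁ : ℕ} (hq : q ∈ g.V) (hq₁ : q₁ ∈ g.V)
    (h : Rg g s q = Rg g s q₁) (hx : z g s ≤ x) : ro x q = ro x q₁ := by
  have hq0 : 0 < q := (mem_Icc.1 (hV hq)).1
  have hq₁0 : 0 < q₁ := (mem_Icc.1 (hV hq₁)).1
  unfold ro
  refine prod_congr ?_ fun _ _ => rfl
  ext p
  simp only [mem_filter, Nat.mem_primeFactors]
  constructor
  · rintro ⟨⟨h1, h2, h3⟩, h4⟩
    have h5 := fac_of_Rg hV hq₁ hq h (lt_of_le_of_lt hx h4)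
    have h6 := h1.factorization_pos_of_dvd h3 h2
    exact ⟨⟨h1, Nat.dvd_of_factorization_pos (by omega), hq₁0.ne'⟩, h4⟩
  · rintro ⟨⟨h1, h2, h3⟩, h4⟩
    have h5 := fac_of_Rg hV hq₁ hq h (lt_of_le_of_lt hx h4)
    have h6 := h1.factorization_pos_of_dvd h3 h2
    exact ⟨⟨h1, Nat.dvd_of_factorization_pos (by omega), hq0.ne'⟩, h4⟩

/-! ### The leak triples of two groups -/

/-- the smooth parts of the cofactors of the leak triples of two groups -/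
def OmG (g : Cfg) (i s : ℕ) (Gq Gr : Finset ℕ) (u v : ℕ) : Prop :=
  ∃ q ∈ Gq, ∃ r ∈ Gr, ∃ n ∈ Sh g q r, LkC g i s q r n ∧
    u = cofac (inn g s q) (inn g s r) ∧ v = cofac (inn g s r) (inn g s q)

/-- the rough parts of the cofactors of a leak triple -/
theorem leak_rough (hV : g.V ⊆ Icc 1 (N g)) (hJ : JsOK g.K g.Js) (hX : g.Js ≤ g.X)
    {i s q r q₁ r₁ : ℕ} {n n₁ : ℤ} (his : i ≤ s) (hq : q ∈ g.V) (hr : r ∈ g.V) (hq₁ : q₁ ∈ g.V)
    (hr₁ : r₁ ∈ g.V) (hRq : Rg g s q = Rg g s q₁) (hRr : Rg g s r = Rg g s r₁)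
    (hT : TAj g i q r n) (hT₁ : TAj g i q₁ r₁ n₁) :
    M g i q = M g i q₁ ∧ M g i r = M g i r₁ ∧
    rgh (z g s) (rcof (z g i) (N g) (kc g q) q r) =
      rgh (z g s) (rcof (z g i) (N g) (kc g q₁) q₁ r₁) ∧
    rgh (z g s) (rcof (z g i) (N g) (kc g q) r q) =
      rgh (z g s) (rcof (z g i) (N g) (kc g q₁) r₁ q₁) := by
  have hz := zs_le_z hJ hX i
  have hs := z_anti g his
  have hM : M g i q = M g i q₁ := M_of_Rg hV hq₁ hq (Rg_of_Rg hV his hq hq₁ hRq)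
  have hMr : M g i r = M g i r₁ := M_of_Rg hV hr₁ hr (Rg_of_Rg hV his hr hr₁ hRr)
  obtain ⟨h1, h2⟩ := cofac_Rg_eq hV hz hs hq hr hT.2.2.1
  obtain ⟨h3, h4⟩ := cofac_Rg_eq hV hz hs hq₁ hr₁ hT₁.2.2.1
  rw [hRq, hRr, h3, hMr] at h1
  rw [hRq, hRr, h4, hM] at h2
  exact ⟨hM, hMr, (Nat.eq_of_mul_eq_mul_left (M_pos g i r₁) h1).symm,
    (Nat.eq_of_mul_eq_mul_left (M_pos g i q₁) h2).symm⟩

theorem Un.eq {i s q : ℕ} {F F' : ℚ} (h : Un g i s q F) (h' : Un g i s q F') (his : i < s) :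
    F' = F := by
  obtain ⟨b, hb⟩ := h i le_rfl his
  obtain ⟨b', hb'⟩ := h' i le_rfl his
  rw [hb, Option.some.injEq, Prod.mk.injEq] at hb'
  exact hb'.1.symm

/-- the data of a leak triple of two groups -/
theorem leak_data {i s q r : ℕ} {n : ℤ} {F G : ℚ} (his : i < s) (hL : LkC g i s q r n)
    (hUq : Un g i s q F) (hUr : Un g i s r G) :
    TAj g i q r n ∧ Dl g q r ≤ z g i ∧
      (n : ℚ) + F * ((cofac r q : ℤ) : ℚ) - G * ((cofac q r : ℤ) : ℚ) = 0 ∧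
      (KS g i q r F G) ^ (1 / 8 : ℝ) ≤
        max (rcof (z g i) (N g) (kc g q) q r : ℝ) (rcof (z g i) (N g) (kc g q) r q : ℝ) := by
  obtain ⟨h1, h2, F', G', h3, h4, h5, h6, h7⟩ := hL
  obtain rfl := hUq.eq h3 his
  obtain rfl := hUr.eq h4 his
  refine ⟨h1, h2, ?_, h7⟩
  obtain ⟨F₁, b, G₁, b', e1, e2, e3⟩ := h1.1
  obtain ⟨c, hc⟩ := h3 i le_rfl his
  obtain ⟨c', hc'⟩ := h4 i le_rfl his
  rw [hc, Option.some.injEq, Prod.mk.injEq] at e1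
  rw [hc', Option.some.injEq, Prod.mk.injEq] at e2
  rw [e1.1, e2.1]
  exact e3

open Classical in
/-- the sum over the sheets has at most one term -/
theorem sum_leak_le {i s q r : ℕ} {F G : ℚ} (his : i < s) (hUq : Un g i s q F)
    (hUr : Un g i s r G) {w : ℤ → ℝ} {B : ℝ} (hB : 0 ≤ B)
    (hw : ∀ n ∈ Sh g q r, LkC g i s q r n → w n ≤ B) :
    ∑ n ∈ (Sh g q r).filter (fun n => LkC g i s q r n), w n ≤ B := by
  rcases ((Sh g q r).filter (fun n => LkC g i s q r n)).eq_empty_or_nonempty with h0 | ⟨n₀, hn₀⟩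
  · rw [h0, sum_empty]
    exact hB
  · obtain ⟨h1, h2⟩ := mem_filter.1 hn₀
    have h3 : (Sh g q r).filter (fun n => LkC g i s q r n) = {n₀} := by
      ext n
      rw [mem_singleton]
      constructor
      · intro hn
        obtain ⟨-, h4⟩ := mem_filter.1 hn
        have e1 := (leak_data his h4 hUq hUr).2.2.1
        have e2 := (leak_data his h2 hUq hUr).2.2.1
        have e3 : (n : ℚ) = n₀ := by linear_combination e1 - e2
        exact_mod_cast e3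
      · rintro rfl
        exact hn₀
    rw [h3, sum_singleton]
    exact hw n₀ h1 h2

open Classical in
/-- **The left side**: the pairs of two groups as an energy of the smooth parts. -/
theorem grp_left : ∃ C > 0, ∀ g : Cfg, Real.exp 1 ≤ g.K.P.ρ0 ^ (-g.K.P.c0) → JsOK g.K g.Js →
    g.Js ≤ g.X → g.V ⊆ Icc 1 (N g) → ∀ i s, i < s → ∀ (Gq Gr : Finset ℕ) (R R' : ℕ) (F G : ℚ),
    Gq ⊆ V1 g → Gr ⊆ V1 g → (∀ q ∈ Gq, Rg g s q = R ∧ Un g i s q F) →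
    (∀ r ∈ Gr, Rg g s r = R' ∧ Un g i s r G) →
    ∀ q₁ ∈ Gq, ∀ r₁ ∈ Gr, ∀ n₁, LkC g i s q₁ r₁ n₁ → ∀ al be : ℕ,
    al = rgh (z g s) (rcof (z g i) (N g) (kc g q₁) q₁ r₁) →
    be = rgh (z g s) (rcof (z g i) (N g) (kc g q₁) r₁ q₁) →
    ∑ q ∈ Gq, ∑ r ∈ Gr.erase q, f g q * f g r / Dl g q r *
      ∑ n ∈ (Sh g q r).filter (fun n => LkC g i s q r n), Kd g (fun _ _ => 0) q r n ≤
    C * (NT.Gn al * NT.Gn be) * Real.sqrt (ro (z g i) q₁ * ro (z g i) r₁) *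
      Real.sqrt (ro (z g s) q₁ * ro (z g s) r₁) *
      ((1 + Real.log (z g s)) ^ 3 * (1 / (((M g i r₁ : ℝ) * al) * (M g i q₁ * be)) *
        eng (OmG g i s Gq Gr) (N g)
          (fun x => (M g i q₁ : ℝ) * be * ψ g (R * x)) (fun y => (M g i r₁ : ℝ) * al * ψ g (R' * y))
          (fun x => (M g i q₁ : ℝ) * be * (if R * x ∈ Gq then ft g s (R * x) else 0))
          (fun y => (M g i r₁ : ℝ) * al * (if R' * y ∈ Gr then ft g s (R' * y) else 0)))) := by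
  obtain ⟨C, hC, ht⟩ := term_leak
  refine ⟨C, hC, ?_⟩
  intro g hρ hJ hX hV i s his Gq Gr R R' F G hGq hGr hq hr q₁ hq₁ r₁ hr₁ n₁ hL₁ al be hal hbe
  have hX1 : 1 ≤ g.X := by linarith [hJ.1]
  have hz := zs_le_z hJ hX i
  have hs := z_anti g his.le
  have hGqV : ∀ q ∈ Gq, q ∈ g.V := fun q h => V1_mem (hGq h)
  have hGrV : ∀ r ∈ Gr, r ∈ g.V := fun r h => V1_mem (hGr h)
  obtain ⟨hT₁, hD₁, -, -⟩ := leak_data his hL₁ (hq q₁ hq₁).2 (hr r₁ hr₁).2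
  obtain ⟨c1, c2⟩ := cofac_Rg_eq hV hz hs (hGqV q₁ hq₁) (hGrV r₁ hr₁) hT₁.2.2.1
  rw [(hq q₁ hq₁).1, (hr r₁ hr₁).1, ← hal] at c1
  rw [(hq q₁ hq₁).1, (hr r₁ hr₁).1, ← hbe] at c2
  have hR : 0 < R := by
    rw [← (hq q₁ hq₁).1]
    exact Rg_pos s q₁
  have hR' : 0 < R' := by
    rw [← (hr r₁ hr₁).1]
    exact Rg_pos s r₁
  set Cst : ℝ := C * (1 + Real.log (z g s)) ^ 3 * (NT.Gn al * NT.Gn be) *
    Real.sqrt (ro (z g i) q₁ * ro (z g i) r₁) * Real.sqrt (ro (z g s) q₁ * ro (z g s) r₁)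
    with hCst
  have hlog : 0 ≤ Real.log (z g s) := Real.log_nonneg (by exact_mod_cast one_le_z g s)
  have hG1 := one_le_Gn al
  have hG2 := one_le_Gn be
  have hCst0 : 0 ≤ Cst := by positivity
  have hpt : ∀ q ∈ Gq, ∀ r ∈ Gr, f g q * f g r / Dl g q r *
      ∑ n ∈ (Sh g q r).filter (fun n => LkC g i s q r n), Kd g (fun _ _ => 0) q r n ≤
      Cst * (if OmG g i s Gq Gr (cofac (inn g s q) (inn g s r)) (cofac (inn g s r) (inn g s q))
        then ft g s q * ft g s r / Dl g q r else 0) := by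
    intro q hqG r hrG
    have hqV := hGqV q hqG
    have hrV := hGrV r hrG
    have hq0 : 0 < q := (mem_Icc.1 (hV hqV)).1
    have hr0 : 0 < r := (mem_Icc.1 (hV hrV)).1
    have hD0 : 0 < Dl g q r := Dl_pos g hq0 hr0
    have hft : 0 ≤ ft g s q * ft g s r / Dl g q r :=
      div_nonneg (mul_nonneg (ft_nonneg _ _) (ft_nonneg _ _)) hD0.le
    rw [mul_sum]
    refine sum_leak_le his (hq q hqG).2 (hr r hrG).2 ?_ fun n hn hL => ?_
    · refine mul_nonneg hCst0 ?_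
      split_ifs
      · exact hft
      · exact le_rfl
    · have hΩ : OmG g i s Gq Gr (cofac (inn g s q) (inn g s r))
          (cofac (inn g s r) (inn g s q)) := ⟨q, hqG, r, hrG, n, hn, hL, rfl, rfl⟩
      rw [if_pos hΩ]
      obtain ⟨hT, hD, -, -⟩ := leak_data his hL (hq q hqG).2 (hr r hrG).2
      have e1 : Rg g s q = Rg g s q₁ := (hq q hqG).1.trans (hq q₁ hq₁).1.symm
      have e2 : Rg g s r = Rg g s r₁ := (hr r hrG).1.trans (hr r₁ hr₁).1.symm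
      obtain ⟨-, -, e3, e4⟩ := leak_rough hV hJ hX his.le hqV hrV (hGqV q₁ hq₁) (hGrV r₁ hr₁)
        e1 e2 hT hT₁
      have h1 := ht g hρ hJ hX hV (fun _ _ => 0) (fun _ _ => ⟨le_rfl, zero_le_one⟩) i s q r n
        his.le (hGq hqG) (hGr hrG) hn hT hD
      rw [e3, e4, ← hal, ← hbe, ro_of_Rg hV hqV (hGqV q₁ hq₁) e1 hs,
        ro_of_Rg hV hrV (hGrV r₁ hr₁) e2 hs] at h1
      have e5 : ro (z g s) q = ro (z g s) q₁ := ro_of_Rg hV hqV (hGqV q₁ hq₁) e1 le_rfl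
      have e6 : ro (z g s) r = ro (z g s) r₁ := ro_of_Rg hV hrV (hGrV r₁ hr₁) e2 le_rfl
      refine h1.trans (le_of_eq ?_)
      rw [hCst]
      unfold ft
      rw [e5, e6]
  have hsum : ∑ q ∈ Gq, ∑ r ∈ Gr.erase q, f g q * f g r / Dl g q r *
      ∑ n ∈ (Sh g q r).filter (fun n => LkC g i s q r n), Kd g (fun _ _ => 0) q r n ≤
      Cst * ∑ q ∈ Gq, ∑ r ∈ Gr, (if OmG g i s Gq Gr (cofac (inn g s q) (inn g s r))
        (cofac (inn g s r) (inn g s q)) then ft g s q * ft g s r / Dl g q r else 0) := by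
    rw [mul_sum]
    refine sum_le_sum fun q hqG => ?_
    rw [mul_sum]
    refine (sum_le_sum fun r hrG => hpt q hqG r (mem_of_mem_erase hrG)).trans ?_
    refine sum_le_sum_of_subset_of_nonneg (erase_subset _ _) fun r hrG _ => ?_
    refine mul_nonneg hCst0 ?_
    split_ifs
    · exact div_nonneg (mul_nonneg (ft_nonneg _ _) (ft_nonneg _ _))
        (Dl_pos g (mem_Icc.1 (hV (hGqV q hqG))).1 (mem_Icc.1 (hV (hGrV r hrG))).1).le
    · exact le_rfl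
  refine hsum.trans (le_of_eq ?_)
  rw [grp_eng hV hX1 (fun q h => ⟨hGqV q h, (hq q h).1⟩) (fun r h => ⟨hGrV r h, (hr r h).1⟩)
    hR hR' (OmG g i s Gq Gr), c1, c2, hCst]
  push_cast
  ring

theorem sqrt_mul_le {a b c : ℝ} (hb : 0 ≤ b) (hc : 1 ≤ c) (h : a ≤ c * b) :
    Real.sqrt (a * b) ≤ c * b := by
  rw [Real.sqrt_le_left (by positivity)]
  calc a * b ≤ (c * b) * b := mul_le_mul_of_nonneg_right h hb
    _ ≤ (c * b) * (c * b) := by
        refine mul_le_mul_of_nonneg_left ?_ (by positivity)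
        nlinarith
    _ = (c * b) ^ 2 := by ring

theorem rgh_le_Gn {x y n : ℕ} (hn : n ≠ 0) (hxy : x ≤ y) : NT.Gn (rgh y n) ≤ NT.Gn (rgh x n) := by
  unfold NT.Gn
  refine prod_le_of_subset (fun p hp => ?_) fun p hp =>
    one_le_inv_factor (Nat.prime_of_mem_primeFactors hp)
  obtain ⟨h1, h2, h3⟩ := Nat.mem_primeFactors.1 hp
  unfold rgh at h2
  rw [Prime.dvd_finsetProd_iff (Nat.prime_iff.1 h1)] at h2
  obtain ⟨p', hp', h4⟩ := h2
  obtain ⟨h5, h6⟩ := mem_filter.1 hp'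
  have h7 : p = p' := (Nat.prime_dvd_prime_iff_eq h1 (Nat.prime_of_mem_primeFactors h5)).1
    (h1.dvd_of_dvd_pow h4)
  rw [Nat.mem_primeFactors]
  refine ⟨h1, ?_, (rgh_pos_lk _ _).ne'⟩
  rw [h7]
  exact dvd_rgh (Nat.prime_of_mem_primeFactors h5) hn (Nat.dvd_of_mem_primeFactors h5) (by omega)

/-- **The right side**: the weights of the group bound. -/
theorem grp_right (hV : g.V ⊆ Icc 1 (N g)) (hJ : JsOK g.K g.Js) (hX : g.Js ≤ g.X)
    {i s q₁ r₁ al be : ℕ} {Gq Gr : Finset ℕ} (his : i ≤ s) (hq₁ : q₁ ∈ V1 g) (hr₁ : r₁ ∈ V1 g)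
    (hGq : ∀ q ∈ Gq, q ∈ g.V ∧ Rg g s q = Rg g s q₁)
    (hGr : ∀ r ∈ Gr, r ∈ g.V ∧ Rg g s r = Rg g s r₁) (hc : Clean g (z g i) q₁ r₁)
    (hal : al = rgh (z g s) (rcof (z g i) (N g) (kc g q₁) q₁ r₁))
    (hbe : be = rgh (z g s) (rcof (z g i) (N g) (kc g q₁) r₁ q₁)) :
    Real.sqrt (ro (z g i) q₁ * ro (z g i) r₁) * Real.sqrt (ro (z g s) q₁ * ro (z g s) r₁) *
      ((∑ q ∈ Gq, ft g s q) / M g i r₁ + (∑ r ∈ Gr, ft g s r) / M g i q₁) ≤
    Real.exp 1 * (NT.Gn al * NT.Gn be) *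
      ((∑ q ∈ Gq, f g q) * wdv (xc (PO (z g i) (N g)) (kc g q₁)) (M g i r₁) +
        (∑ r ∈ Gr, f g r) * wdv (xc (PO (z g i) (N g)) (kc g r₁)) (M g i q₁)) := by
  have hz := zs_le_z hJ hX i
  have hs := z_anti g his
  have hqV : q₁ ∈ g.V := V1_mem hq₁
  have hrV : r₁ ∈ g.V := V1_mem hr₁
  obtain ⟨-, -, -, hn1, hn2⟩ := clean_cofac hV hz hqV hrV hc
  -- the sums
  have hsq : ∑ q ∈ Gq, ft g s q = (∑ q ∈ Gq, f g q) / ro (z g s) q₁ := by
    rw [sum_div]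
    refine sum_congr rfl fun q hq => ?_
    unfold ft
    rw [ro_of_Rg hV (hGq q hq).1 hqV (hGq q hq).2 le_rfl]
  have hsr : ∑ r ∈ Gr, ft g s r = (∑ r ∈ Gr, f g r) / ro (z g s) r₁ := by
    rw [sum_div]
    refine sum_congr rfl fun r hr => ?_
    unfold ft
    rw [ro_of_Rg hV (hGr r hr).1 hrV (hGr r hr).2 le_rfl]
  rw [hsq, hsr]
  set S1 : ℝ := ∑ q ∈ Gq, f g q with hS1
  set S2 : ℝ := ∑ r ∈ Gr, f g r with hS2
  have hS10 : 0 ≤ S1 := sum_nonneg fun q _ => f_nonneg g q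
  have hS20 : 0 ≤ S2 := sum_nonneg fun q _ => f_nonneg g q
  have hG1 := one_le_Gn al
  have hG2 := one_le_Gn be
  have hE1 : (1 : ℝ) ≤ Real.exp (1 / 2) := Real.one_le_exp (by norm_num)
  have hEE : Real.exp (1 / 2) * Real.exp (1 / 2) = Real.exp 1 := by
    rw [← Real.exp_add]
    norm_num
  -- comparisons of the densities
  have a1 : ro (z g s) r₁ ≤ Real.exp (1 / 2) * NT.Gn al * ro (z g s) q₁ := by
    rw [hal]
    exact ro_le_ro hV hz hq₁ hr₁ hc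
  have a2 : ro (z g s) q₁ ≤ Real.exp (1 / 2) * NT.Gn be * ro (z g s) r₁ := by
    rw [hbe]
    exact ro_le_ro' hV hz hq₁ hr₁ hc
  have a3 : ro (z g i) r₁ ≤ Real.exp (1 / 2) * NT.Gn al * ro (z g i) q₁ := by
    refine (ro_le_ro (x := z g i) hV hz hq₁ hr₁ hc).trans ?_
    refine mul_le_mul_of_nonneg_right ?_ (ro_nonneg _ _)
    rw [hal]
    exact mul_le_mul_of_nonneg_left (rgh_le_Gn hn1.ne' hs) (by linarith)
  have a4 : ro (z g i) q₁ ≤ Real.exp (1 / 2) * NT.Gn be * ro (z g i) r₁ := by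
    refine (ro_le_ro' (x := z g i) hV hz hq₁ hr₁ hc).trans ?_
    refine mul_le_mul_of_nonneg_right ?_ (ro_nonneg _ _)
    rw [hbe]
    exact mul_le_mul_of_nonneg_left (rgh_le_Gn hn2.ne' hs) (by linarith)
  have hEG : 1 ≤ Real.exp (1 / 2) * NT.Gn al := by nlinarith
  have hEH : 1 ≤ Real.exp (1 / 2) * NT.Gn be := by nlinarith
  have b1 : Real.sqrt (ro (z g i) q₁ * ro (z g i) r₁) ≤
      Real.exp (1 / 2) * NT.Gn be * ro (z g i) r₁ := sqrt_mul_le (ro_nonneg _ _) hEH a4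
  have b2 : Real.sqrt (ro (z g i) q₁ * ro (z g i) r₁) ≤
      Real.exp (1 / 2) * NT.Gn al * ro (z g i) q₁ := by
    rw [mul_comm (ro (z g i) q₁)]
    exact sqrt_mul_le (ro_nonneg _ _) hEG a3
  have b3 : Real.sqrt (ro (z g s) q₁ * ro (z g s) r₁) ≤
      Real.exp (1 / 2) * NT.Gn al * ro (z g s) q₁ := by
    rw [mul_comm (ro (z g s) q₁)]
    exact sqrt_mul_le (ro_nonneg _ _) hEG a1
  have b4 : Real.sqrt (ro (z g s) q₁ * ro (z g s) r₁) ≤
      Real.exp (1 / 2) * NT.Gn be * ro (z g s) r₁ := sqrt_mul_le (ro_nonneg _ _) hEH a2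
  have d1 := ro_div_le_wdv hV hz hqV hrV hc
  have d2 := ro_div_le_wdv' hV hz hqV hrV hc
  have hM1 : (0 : ℝ) < M g i r₁ := by exact_mod_cast M_pos g i r₁
  have hM2 : (0 : ℝ) < M g i q₁ := by exact_mod_cast M_pos g i q₁
  have r1 := ro_pos (z g s) q₁
  have r2 := ro_pos (z g s) r₁
  have r3 := ro_pos (z g i) q₁
  have r4 := ro_pos (z g i) r₁
  set A := Real.sqrt (ro (z g i) q₁ * ro (z g i) r₁) with hA
  set B := Real.sqrt (ro (z g s) q₁ * ro (z g s) r₁) with hB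
  have hA0 : 0 ≤ A := Real.sqrt_nonneg _
  have hB0 : 0 ≤ B := Real.sqrt_nonneg _
  have t1 : A * B * (S1 / ro (z g s) q₁ / M g i r₁) ≤
      Real.exp 1 * (NT.Gn al * NT.Gn be) *
        (S1 * wdv (xc (PO (z g i) (N g)) (kc g q₁)) (M g i r₁)) := by
    calc A * B * (S1 / ro (z g s) q₁ / M g i r₁)
        ≤ (Real.exp (1 / 2) * NT.Gn be * ro (z g i) r₁) *
          (Real.exp (1 / 2) * NT.Gn al * ro (z g s) q₁) * (S1 / ro (z g s) q₁ / M g i r₁) :=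
          mul_le_mul_of_nonneg_right (mul_le_mul b1 b3 hB0 (by positivity)) (by positivity)
      _ = Real.exp 1 * (NT.Gn al * NT.Gn be) * (S1 * (ro (z g i) r₁ / M g i r₁)) := by
          rw [← hEE]
          field_simp
      _ ≤ _ := mul_le_mul_of_nonneg_left (mul_le_mul_of_nonneg_left d1 hS10) (by positivity)
  have t2 : A * B * (S2 / ro (z g s) r₁ / M g i q₁) ≤
      Real.exp 1 * (NT.Gn al * NT.Gn be) *
        (S2 * wdv (xc (PO (z g i) (N g)) (kc g r₁)) (M g i q₁)) := by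
    calc A * B * (S2 / ro (z g s) r₁ / M g i q₁)
        ≤ (Real.exp (1 / 2) * NT.Gn al * ro (z g i) q₁) *
          (Real.exp (1 / 2) * NT.Gn be * ro (z g s) r₁) * (S2 / ro (z g s) r₁ / M g i q₁) :=
          mul_le_mul_of_nonneg_right (mul_le_mul b2 b4 hB0 (by positivity)) (by positivity)
      _ = Real.exp 1 * (NT.Gn al * NT.Gn be) * (S2 * (ro (z g i) q₁ / M g i q₁)) := by
          rw [← hEE]
          field_simp
      _ ≤ _ := mul_le_mul_of_nonneg_left (mul_le_mul_of_nonneg_left d2 hS20) (by positivity)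
  calc A * B * (S1 / ro (z g s) q₁ / M g i r₁ + S2 / ro (z g s) r₁ / M g i q₁)
      = A * B * (S1 / ro (z g s) q₁ / M g i r₁) + A * B * (S2 / ro (z g s) r₁ / M g i q₁) := by
        ring
    _ ≤ _ := add_le_add t1 t2
    _ = _ := by ring

/-- the conclusion of `inner_group` -/
def InG (A₁ c₄ K₁ : ℝ) : Prop := ∀ K ≥ K₁,
    ∀ (z N mr mq al be : ℕ) (Ms L K' : ℝ) (k : ℤ) (d : ℕ) (k' : ℤ) (d' : ℕ) (e₁ e₂ : ℝ)
    (Ω : ℕ → ℕ → Prop) (ψ₁ ψ₂ f h : ℕ → ℝ),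
    2 ≤ z → Real.log z ≤ K ^ (c₄ : ℝ) → 0 < mr → 0 < mq → 0 < al → 0 < be → 0 < Ms → 0 ≤ L →
    K ^ (1 / 3 : ℝ) ≤ K' → 0 < d → 0 < d' → IsCoprime k (d : ℤ) → IsCoprime k' (d' : ℤ) →
    ((d * d' : ℕ) : ℝ) ≤ K ^ (3 : ℝ) →
    (∀ q, 0 ≤ f q ∧ f q ≤ ψ₁ q) → (∀ r, 0 ≤ h r ∧ h r ≤ ψ₂ r) →
    (∀ q, f q ≠ 0 → K ^ (-A₁) ≤ Ms * ψ₁ q) → Ms * ∑ q ∈ Icc 1 N, f q ≤ 8 * K →
    (∀ u v, Ω u v → PComp (PZ z) (u * v)) → (∀ u v, Ω u v → (2 : ℝ) ^ L ≤ max (u : ℝ) v) →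
    ((al : ℝ) < K ^ (1 / 20 : ℝ) → (be : ℝ) < K ^ (1 / 20 : ℝ) →
      ∀ u v, Ω u v → LeakRel K' k d k' d' e₁ e₂ z u v) →
    (1 + Real.log z) ^ 3 * (1 / (((mr : ℝ) * al) * (mq * be)) *
      eng Ω N (fun x => (mq : ℝ) * be * ψ₁ x) (fun x => (mr : ℝ) * al * ψ₂ x)
        (fun x => (mq : ℝ) * be * f x) (fun x => (mr : ℝ) * al * h x)) ≤
      K ^ (-(1 / 1000) : ℝ) * ((al : ℝ) * be) ^ (-(5 / 12 + 1 / 200) : ℝ) *
        (1 + L) ^ (-(2 : ℝ)) * ((∑ q ∈ Icc 1 N, f q) / mr + (∑ r ∈ Icc 1 N, h r) / mq)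

theorem exists_InG {A₁ : ℝ} (hA₁ : 0 ≤ A₁) : ∃ c₄ > 0, ∃ K₁ ≥ (8 : ℝ), InG A₁ c₄ K₁ :=
  inner_group A₁ hA₁

theorem third_le {K : ℝ} (hK : 4096 ≤ K) : K ^ (1 / 3 : ℝ) ≤ K ^ (1 / 2 : ℝ) / 4 := by
  have hK0 : 0 < K := by linarith
  have h1 : (4 : ℝ) ≤ K ^ (1 / 6 : ℝ) := by
    calc (4 : ℝ) = (4096 : ℝ) ^ (1 / 6 : ℝ) := by
          rw [show (4096 : ℝ) = 4 ^ (6 : ℕ) by norm_num, ← Real.rpow_natCast, ← Real.rpow_mul
            (by norm_num)]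
          norm_num
      _ ≤ K ^ (1 / 6 : ℝ) := Real.rpow_le_rpow (by norm_num) hK (by norm_num)
  have h2 : K ^ (1 / 2 : ℝ) = K ^ (1 / 3 : ℝ) * K ^ (1 / 6 : ℝ) := by
    rw [← Real.rpow_add hK0]
    norm_num
  have h3 : 0 < K ^ (1 / 3 : ℝ) := by positivity
  rw [h2]
  nlinarith

theorem level_le {K κ c0 : ℝ} (hc0 : 0 < c0) (hK : 2 ≤ K) (hκ : κ ≤ 2 * K) (hκ0 : 1 ≤ κ) :
    K ^ (-(2 / c0)) ≤ κ ^ (-(1 / c0)) := by
  have h1 : κ ≤ K ^ (2 : ℝ) := by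
    have : K ^ (2 : ℝ) = K * K := by norm_cast; ring
    rw [this]
    nlinarith
  calc K ^ (-(2 / c0)) = (K ^ (2 : ℝ)) ^ (-(1 / c0)) := by
        rw [← Real.rpow_mul (by linarith)]
        congr 1
        ring
    _ ≤ κ ^ (-(1 / c0)) := Real.rpow_le_rpow_of_nonpos (by linarith) h1 (by
        rw [neg_nonpos]
        positivity)

theorem grpB_core : ∃ C ≥ 0, ∀ (g : Cfg) (c₄ K₁ : ℝ), InG (2 / g.K.P.c0) c₄ K₁ → g.K.P.cm = 1 →
    g.K.P.c4 ≤ c₄ → K₁ ≤ g.K.P.ρ0 ^ (-g.K.P.c0) → 4096 ≤ g.K.P.ρ0 ^ (-g.K.P.c0) →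
    JsOK g.K g.Js → g.Js ≤ g.X → g.V ⊆ Icc 1 (N g) → ∀ i s, i < s → GrpB g C i s := by
  classical
  obtain ⟨C₀, hC₀, hleft⟩ := grp_left
  obtain ⟨Ce, hCe, hend⟩ := lk_end 2
  refine ⟨C₀ * Real.exp 1 * Ce, by positivity, ?_⟩
  intro g c₄ K₁ hin hcm hc4 hK₁ h4096 hJ hX hV i s his Gq Gr R R' lq lr F G hGq hGr hq hr q₁ hq₁
    r₁ hr₁ n₁ hn₁ hL₁
  have hρ : Real.exp 1 ≤ g.K.P.ρ0 ^ (-g.K.P.c0) := by
    have := Real.exp_one_lt_d9
    linarith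
  have hX1 : 1 ≤ g.X := by linarith [hJ.1]
  have hz := zs_le_z hJ hX i
  have hs := z_anti g his.le
  have hGqV : ∀ q ∈ Gq, q ∈ g.V := fun q h => V1_mem (hGq h)
  have hGrV : ∀ r ∈ Gr, r ∈ g.V := fun r h => V1_mem (hGr h)
  have hqV := hGqV q₁ hq₁
  have hrV := hGrV r₁ hr₁
  have hq0 : 0 < q₁ := (mem_Icc.1 (hV hqV)).1
  have hr0 : 0 < r₁ := (mem_Icc.1 (hV hrV)).1
  obtain ⟨hRq, hlq, hUq, hSq⟩ := hq q₁ hq₁
  obtain ⟨hRr, hlr, hUr⟩ := hr r₁ hr₁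
  obtain ⟨hT₁, hD₁, hal₁, hmax₁⟩ := leak_data his hL₁ hUq hUr
  have hcl := hT₁.2.2.1
  set al := rgh (z g s) (rcof (z g i) (N g) (kc g q₁) q₁ r₁) with hal
  set be := rgh (z g s) (rcof (z g i) (N g) (kc g q₁) r₁ q₁) with hbe
  set K := KS g i q₁ r₁ F G with hK
  have hal0 : 0 < al := rgh_pos_lk _ _
  have hbe0 : 0 < be := rgh_pos_lk _ _
  obtain ⟨k1, k2, k3⟩ := Un_facts_K hSq hUq his (K := K) (le_max_left _ _)
  have hK4 : 4096 ≤ K := h4096.trans k1.le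
  have hK0 : 0 < K := by linarith
  have hK1 : 1 ≤ K := by linarith
  have hKK₁ : K₁ ≤ K := hK₁.trans k1.le
  -- the data of the pairs
  have hRqG : ∀ q ∈ Gq, Rg g s q = Rg g s q₁ := fun q h => (hq q h).1.trans hRq.symm
  have hRrG : ∀ r ∈ Gr, Rg g s r = Rg g s r₁ := fun r h => (hr r h).1.trans hRr.symm
  have hMqi : ∀ q ∈ Gq, M g i q = M g i q₁ := fun q h =>
    M_of_Rg hV hqV (hGqV q h) (Rg_of_Rg hV his.le (hGqV q h) hqV (hRqG q h))
  have hMri : ∀ r ∈ Gr, M g i r = M g i r₁ := fun r h =>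
    M_of_Rg hV hrV (hGrV r h) (Rg_of_Rg hV his.le (hGrV r h) hrV (hRrG r h))
  have hMqs : ∀ q ∈ Gq, M g s q = M g s q₁ := fun q h => M_of_Rg hV hqV (hGqV q h) (hRqG q h)
  set l : ℝ := (lr : ℝ) - lq + Real.logb 2 ((M g i r₁ : ℝ) / M g i q₁) with hl
  set L : ℝ := max 0 (|l| - 3 - Real.logb 2 ((al : ℝ) * be)) with hLdef
  set U : ℕ := M g i r₁ * al with hU
  set W : ℕ := M g i q₁ * be with hW
  -- a pair of the energy
  have hΩ : ∀ u v, OmG g i s Gq Gr u v → ∃ q ∈ Gq, ∃ r ∈ Gr, ∃ n ∈ Sh g q r,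
      LkC g i s q r n ∧ u = cofac (inn g s q) (inn g s r) ∧ v = cofac (inn g s r) (inn g s q) ∧
      cofac q r = U * u ∧ cofac r q = W * v ∧ U = M g i r * al ∧ W = M g i q * be := by
    rintro u v ⟨q, hqG, r, hrG, n, hn, hL, hu, hv⟩
    obtain ⟨hT, -, -, -⟩ := leak_data his hL (hq q hqG).2.2.1 (hr r hrG).2.2
    obtain ⟨e1, e2, e3, e4⟩ := leak_rough hV hJ hX his.le (hGqV q hqG) (hGrV r hrG) hqV hrV
      (hRqG q hqG) (hRrG r hrG) hT hT₁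
    obtain ⟨c1, c2⟩ := cofac_Rg_eq hV hz hs (hGqV q hqG) (hGrV r hrG) hT.2.2.1
    have hq0' : 0 < q := (mem_Icc.1 (hV (hGqV q hqG))).1
    have hr0' : 0 < r := (mem_Icc.1 (hV (hGrV r hrG))).1
    refine ⟨q, hqG, r, hrG, n, hn, hL, hu, hv, ?_, ?_, ?_, ?_⟩
    · rw [cofac_split (g := g) (s := s) hq0' hr0', c1, e2, e3, ← hal, ← hU, hu]
    · rw [cofac_split (g := g) (s := s) hr0' hq0', c2, e1, e4, ← hbe, ← hW, hv]
    · rw [hU, e2]
    · rw [hW, e1]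
  have key := hin K hKK₁ (z g s) (N g) (M g i r₁) (M g i q₁) al be (M g s q₁) L
    (K ^ (1 / 2 : ℝ) / 4) ((W : ℚ) * F).num ((W : ℚ) * F).den ((U : ℚ) * G).num
    ((U : ℚ) * G).den ((g.γ - F) * W) ((g.γ - G) * U) (OmG g i s Gq Gr)
    (fun x => ψ g (R * x)) (fun y => ψ g (R' * y))
    (fun x => if R * x ∈ Gq then ft g s (R * x) else 0)
    (fun y => if R' * y ∈ Gr then ft g s (R' * y) else 0)
    (two_le_z hJ hX s) (k3.trans (Real.rpow_le_rpow_of_exponent_le hK1 hc4))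
    (M_pos g i r₁) (M_pos g i q₁) hal0 hbe0 (by exact_mod_cast M_pos g s q₁) (le_max_left _ _)
    (third_le hK4) (Rat.den_pos _) (Rat.den_pos _) (isCoprime_num_den _) (isCoprime_num_den _)
    (lk_den_le3 (i := i) (q := q₁) (r := r₁) hU hW (by linarith) le_rfl)
    (fun x => ft_ite_le hV (fun q h => ⟨hGqV q h, (hq q h).1⟩) x)
    (fun y => ft_ite_le hV (fun r h => ⟨hGrV r h, (hr r h).1⟩) y)
    ?_ ?_ ?_ ?_ ?_
  · -- the end
    have h1 := hleft g hρ hJ hX hV i s his Gq Gr R R' F G hGq hGr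
      (fun q h => ⟨(hq q h).1, (hq q h).2.2.1⟩) (fun r h => ⟨(hr r h).1, (hr r h).2.2⟩)
      q₁ hq₁ r₁ hr₁ n₁ hL₁ al be rfl rfl
    have h2 := grp_right hV hJ hX his.le (hGq hq₁) (hGr hr₁)
      (fun q h => ⟨hGqV q h, hRqG q h⟩) (fun r h => ⟨hGrV r h, hRrG r h⟩) hcl hal hbe
    have h3 := hend al be l hal0 hbe0
    rw [sum_ft hV (fun q h => ⟨hGqV q h, (hq q h).1⟩),
      sum_ft hV (fun r h => ⟨hGrV r h, (hr r h).1⟩)] at key
    have hG1 := one_le_Gn al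
    have hG2 := one_le_Gn be
    refine h1.trans ?_
    set X : ℝ := (1 + Real.log (z g s)) ^ 3 * (1 / (((M g i r₁ : ℝ) * al) * (M g i q₁ * be)) *
        eng (OmG g i s Gq Gr) (N g)
          (fun x => (M g i q₁ : ℝ) * be * ψ g (R * x)) (fun y => (M g i r₁ : ℝ) * al * ψ g (R' * y))
          (fun x => (M g i q₁ : ℝ) * be * (if R * x ∈ Gq then ft g s (R * x) else 0))
          (fun y => (M g i r₁ : ℝ) * al * (if R' * y ∈ Gr then ft g s (R' * y) else 0))) with hXd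
    set A := Real.sqrt (ro (z g i) q₁ * ro (z g i) r₁) with hA
    set B := Real.sqrt (ro (z g s) q₁ * ro (z g s) r₁) with hB
    set S := (∑ q ∈ Gq, ft g s q) / (M g i r₁ : ℝ) + (∑ r ∈ Gr, ft g s r) / (M g i q₁ : ℝ) with hS
    set T := (∑ q ∈ Gq, f g q) * wdv (xc (PO (z g i) (N g)) (kc g q₁)) (M g i r₁) +
        (∑ r ∈ Gr, f g r) * wdv (xc (PO (z g i) (N g)) (kc g r₁)) (M g i q₁) with hTd
    have hA0 : 0 ≤ A := Real.sqrt_nonneg _
    have hB0 : 0 ≤ B := Real.sqrt_nonneg _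
    have hk0 : 0 ≤ K ^ (-(1 / 1000) : ℝ) := by positivity
    have hx0 : (0 : ℝ) ≤ (al : ℝ) * be := by positivity
    have hp0 : 0 ≤ ((al : ℝ) * be) ^ (-(5 / 12 + 1 / 200) : ℝ) := by positivity
    have hL0 : 0 ≤ L := le_max_left _ _
    have hd0 : 0 ≤ (1 + L) ^ (-(2 : ℝ)) := by positivity
    have hT0 : 0 ≤ T := by
      refine add_nonneg (mul_nonneg (sum_nonneg fun q _ => f_nonneg g q) ?_)
        (mul_nonneg (sum_nonneg fun q _ => f_nonneg g q) ?_)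
      · exact (div_nonneg (ro_nonneg _ _) (Nat.cast_nonneg _)).trans
          (ro_div_le_wdv hV hz hqV hrV hcl)
      · exact (div_nonneg (ro_nonneg _ _) (Nat.cast_nonneg _)).trans
          (ro_div_le_wdv' hV hz hqV hrV hcl)
    have hGH : 0 ≤ NT.Gn al * NT.Gn be := by positivity
    calc C₀ * (NT.Gn al * NT.Gn be) * A * B * X
        ≤ C₀ * (NT.Gn al * NT.Gn be) * A * B * (K ^ (-(1 / 1000) : ℝ) *
          ((al : ℝ) * be) ^ (-(5 / 12 + 1 / 200) : ℝ) * (1 + L) ^ (-(2 : ℝ)) * S) :=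
          mul_le_mul_of_nonneg_left key (by positivity)
      _ = C₀ * (NT.Gn al * NT.Gn be) * (K ^ (-(1 / 1000) : ℝ) *
          ((al : ℝ) * be) ^ (-(5 / 12 + 1 / 200) : ℝ) * (1 + L) ^ (-(2 : ℝ))) * (A * B * S) := by
          ring
      _ ≤ C₀ * (NT.Gn al * NT.Gn be) * (K ^ (-(1 / 1000) : ℝ) *
          ((al : ℝ) * be) ^ (-(5 / 12 + 1 / 200) : ℝ) * (1 + L) ^ (-(2 : ℝ))) *
          (Real.exp 1 * (NT.Gn al * NT.Gn be) * T) := mul_le_mul_of_nonneg_left h2 (by positivity)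
      _ = C₀ * Real.exp 1 * K ^ (-(1 / 1000) : ℝ) * T * ((NT.Gn al * NT.Gn be) ^ 2 *
          (((al : ℝ) * be) ^ (-(5 / 12 + 1 / 200) : ℝ) * (1 + L) ^ (-(2 : ℝ)))) := by ring
      _ ≤ C₀ * Real.exp 1 * K ^ (-(1 / 1000) : ℝ) * T *
          (Ce * (((al : ℝ) * be) ^ (-(5 / 12) : ℝ) * (1 + |l|) ^ (-(2 : ℝ)))) :=
          mul_le_mul_of_nonneg_left h3 (by positivity)
      _ = _ := by ring
  · -- the level
    intro x hx
    have hxG : R * x ∈ Gq := by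
      by_contra h
      exact hx (if_neg h)
    obtain ⟨-, a2, a3, a4⟩ := hq _ hxG
    have b0 : 0 < R * x := (mem_Icc.1 (hV (hGqV _ hxG))).1
    have b1 := (Un_facts_K a4 a3 his (K := CF.KK g i (R * x) F) le_rfl).2.1
    have b2 : CF.KK g i (R * x) F ≤ 2 * K :=
      (KK_group b0 hq0 (hMqi _ hxG) (a2.trans hlq.symm) F).trans
        (mul_le_mul_of_nonneg_left (le_max_left _ _) (by norm_num))
    have b3 := level_le g.K.P.c0_pos (by linarith : (2 : ℝ) ≤ K) b2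
      (PA.one_le_KK (dat g) i (R * x) F)
    rw [hMqs _ hxG] at b1
    exact b3.trans b1.le
  · -- the mass
    rw [sum_ft hV (fun q h => ⟨hGqV q h, (hq q h).1⟩)]
    have b1 := Un_mass hcm hV his hqV (F := F) (Gq := Gq) (fun q h => ⟨hGqV q h, hRqG q h,
      (hq q h).2.1.trans hlq.symm, (hq q h).2.2.1, (hq q h).2.2.2⟩)
    have b2 : CF.KK g i q₁ F ≤ K := le_max_left _ _
    have b3 : M g s q₁ * ∑ q ∈ Gq, ft g s q ≤ 4 * CF.KK g i q₁ F := b1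
    linarith
  · -- smooth
    intro u v h
    obtain ⟨q, hqG, r, hrG, n, hn, hL, hu, hv, -⟩ := hΩ u v h
    rw [hu, hv]
    exact inn_smooth hV (hGqV q hqG) (hGrV r hrG)
  · -- the dyadic distance
    intro u v h
    obtain ⟨q, hqG, r, hrG, n, hn, hL, hu, hv, e1, e2, e3, e4⟩ := hΩ u v h
    have hu0 : 0 < u := by
      rw [hu]
      exact cofac_pos _ (inn_pos (mem_Icc.1 (hV (hGqV q hqG))).1)
    rcases le_total (|l| - 3 - Real.logb 2 ((al : ℝ) * be)) 0 with h0 | h0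
    · have : L = 0 := max_eq_left h0
      rw [this, Real.rpow_zero]
      exact le_trans (by exact_mod_cast hu0) (le_max_left _ _)
    · have hLe : L = |l| - 3 - Real.logb 2 ((al : ℝ) * be) := max_eq_right h0
      refine lk_big hV (hGqV q hqG) (hGrV r hrG) e1 e2 e3 e4 ?_
      rw [(hq q hqG).2.1, (hr r hrG).2.1, hMqi q hqG, hMri r hrG, ← hl, hLe]
      linarith
  · -- the relation
    intro hal1 hbe1 u v h
    obtain ⟨q, hqG, r, hrG, n, hn, hL, hu, hv, e1, e2, e3, e4⟩ := hΩ u v h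
    obtain ⟨hT, -, halp, hmaxp⟩ := leak_data his hL (hq q hqG).2.2.1 (hr r hrG).2.2
    obtain ⟨c1, c2, -, -, -⟩ := clean_cofac hV hz (hGqV q hqG) (hGrV r hrG) hT.2.2.1
    have d1 : rcof (z g i) (N g) (kc g q) q r = al * u := by
      rw [c1, e3, mul_assoc] at e1
      exact Nat.eq_of_mul_eq_mul_left (M_pos g i r) e1
    have d2 : rcof (z g i) (N g) (kc g q) r q = be * v := by
      rw [c2, e4, mul_assoc] at e2
      exact Nat.eq_of_mul_eq_mul_left (M_pos g i q) e2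
    rw [d1, d2] at hmaxp
    have hq0' : 0 < q := (mem_Icc.1 (hV (hGqV q hqG))).1
    have hr0' : 0 < r := (mem_Icc.1 (hV (hGrV r hrG))).1
    have hKS : K / 2 ≤ KS g i q r F G := by
      have := KS_group hq0 hq0' hr0 hr0' (hMqi q hqG).symm (hlq.trans (hq q hqG).2.1.symm)
        (hMri r hrG).symm (hlr.trans (hr r hrG).2.1.symm) F G
      linarith
    have hab : PComp (PZ (z g s)) (u * v) := by
      rw [hu, hv]
      exact inn_smooth hV (hGqV q hqG) (hGrV r hrG)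
    exact lk_leakRel hV hX1 (hGqV q hqG) (hGrV r hrG) hn halp e1 e2 e3 e4 hK1 hKS hmaxp hal1
      hbe1 (by positivity) le_rfl hab

/-- **The group bound of the leaks.** -/
theorem leakGroupB_alt : LeakGroupB := by
  obtain ⟨C, hC, hcore⟩ := grpB_core
  refine ⟨1, one_pos, fun c0 hc0 _ => ?_⟩
  obtain ⟨c₄, hc₄, K₁, hK₁, hin⟩ := exists_InG (A₁ := 2 / c0) (by positivity)
  have hB0 : 0 < max K₁ 4096 := lt_of_lt_of_le (by norm_num) (le_max_right _ _)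
  refine ⟨c₄, hc₄, fun c4 _ hc4 => ⟨(max K₁ 4096) ^ (-(1 / c0)), by positivity,
    fun ρ0 hρ hρ' => ⟨0, fun C1 _ => ⟨0, fun C2 _ => ?_⟩⟩⟩⟩
  by_cases hg : GoodC c0 c4 ρ0 C1 C2
  · obtain ⟨J₀, hJ⟩ := exists_JsOK (mkC c0 c4 ρ0 C1 C2 hg)
    refine ⟨J₀, fun Js hJs _ => ⟨C, hC, fun g hK hgJ hX hV i s _ his _ => ?_⟩⟩
    have hB1 : max K₁ 4096 ≤ ρ0 ^ (-c0) := by
      calc max K₁ 4096 = ((max K₁ 4096) ^ (-(1 / c0))) ^ (-c0) := by
            rw [← Real.rpow_mul hB0.le, show -(1 / c0) * -c0 = 1 by field_simp, Real.rpow_one]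
        _ ≤ ρ0 ^ (-c0) := Real.rpow_le_rpow_of_nonpos hρ hρ' (by linarith)
    refine hcore g c₄ K₁ ?_ ?_ ?_ ?_ ?_ ?_ hX hV i s his
    · rw [hK]
      exact hin
    · rw [hK]
      rfl
    · rw [hK]
      exact hc4
    · rw [hK]
      exact (le_max_left _ _).trans hB1
    · rw [hK]
      exact (le_max_right _ _).trans hB1
    · rw [hK, hgJ]
      exact hJ Js hJs
  · exact ⟨0, fun Js _ h' => absurd h' hg⟩

end Vale.P028.SK
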